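import Mathlib

set_option autoImplicit false
set_option linter.unusedSectionVars false
open Finset

namespace Crest.Agent.R56

variable {ι : Type*} [Fintype ι] [DecidableEq ι]

noncomputable def wb (p : ℝ) (b : Bool) : ℝ := if b then p else 1 - p

noncomputable def w (p : ℝ) (x : ι → Bool) : ℝ := ∏ i, wb p (x i)

noncomputable def Ex (p : ℝ) (F : (ι → Bool) → ℝ) : ℝ := ∑ x, w p x * F x

variable {p : ℝ}

lemma wb_nonneg (h0 : 0 ≤ p) (h1 : p ≤ 1) (b : Bool) : 0 ≤ wb p b := by
  unfold wb; split_ifs <;> linarith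

lemma w_nonneg (h0 : 0 ≤ p) (h1 : p ≤ 1) (x : ι → Bool) : 0 ≤ w p x :=
  prod_nonneg fun _ _ => wb_nonneg h0 h1 _

lemma Ex_add (F G : (ι → Bool) → ℝ) : Ex p (fun x => F x + G x) = Ex p F + Ex p G := by
  simp only [Ex, mul_add, sum_add_distrib]

lemma Ex_sub (F G : (ι → Bool) → ℝ) : Ex p (fun x => F x - G x) = Ex p F - Ex p G := by
  simp only [Ex, mul_sub, sum_sub_distrib]

lemma Ex_mul_left (c : ℝ) (F : (ι → Bool) → ℝ) : Ex p (fun x => c * F x) = c * Ex p F := by
  simp only [Ex, mul_sum]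
  exact sum_congr rfl fun x _ => by ring

lemma Ex_mul_right (c : ℝ) (F : (ι → Bool) → ℝ) : Ex p (fun x => F x * c) = Ex p F * c := by
  simp only [Ex, sum_mul]
  exact sum_congr rfl fun x _ => by ring

lemma Ex_sum {κ : Type*} (s : Finset κ) (F : κ → (ι → Bool) → ℝ) :
    Ex p (fun x => ∑ k ∈ s, F k x) = ∑ k ∈ s, Ex p (F k) := by
  simp only [Ex, mul_sum]
  exact sum_comm

lemma Ex_comm (F : (ι → Bool) → (ι → Bool) → ℝ) :
    Ex p (fun x => Ex p (fun y => F x y)) = Ex p (fun y => Ex p (fun x => F x y)) := by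
  simp only [Ex, mul_sum]
  rw [sum_comm]
  exact sum_congr rfl fun x _ => sum_congr rfl fun y _ => by ring

lemma Ex_mono (h0 : 0 ≤ p) (h1 : p ≤ 1) {F G : (ι → Bool) → ℝ} (h : ∀ x, F x ≤ G x) :
    Ex p F ≤ Ex p G :=
  sum_le_sum fun x _ => mul_le_mul_of_nonneg_left (h x) (w_nonneg h0 h1 x)

lemma Ex_nonneg (h0 : 0 ≤ p) (h1 : p ≤ 1) {F : (ι → Bool) → ℝ} (h : ∀ x, 0 ≤ F x) :
    0 ≤ Ex p F :=
  sum_nonneg fun x _ => mul_nonneg (w_nonneg h0 h1 x) (h x)

lemma Ex_prod (ψ : ι → Bool → ℝ) :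
    Ex p (fun x => ∏ i, ψ i (x i)) = ∏ i, (p * ψ i true + (1 - p) * ψ i false) := by
  have h := Fintype.prod_sum (fun (i : ι) (b : Bool) => wb p b * ψ i b)
  simp only [Fintype.sum_bool, wb, if_true, Bool.false_eq_true, if_false] at h
  rw [h]
  simp only [Ex, w, wb, prod_mul_distrib]

lemma Ex_const (c : ℝ) : Ex p (fun _ : ι → Bool => c) = c := by
  have h := Ex_prod (ι := ι) (p := p) (fun _ _ => 1)
  simp only [prod_const_one, mul_one, add_sub_cancel] at h
  have h2 := Ex_mul_left (ι := ι) (p := p) c (fun _ => 1)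
  simp only [mul_one, h] at h2
  exact h2

lemma Ex_coord (e : ι) (ψ : Bool → ℝ) :
    Ex p (fun x : ι → Bool => ψ (x e)) = p * ψ true + (1 - p) * ψ false := by
  have h := Ex_prod (ι := ι) (p := p) (fun i b => if i = e then ψ b else 1)
  have h1 : ∀ x : ι → Bool, ∏ i, (if i = e then ψ (x i) else 1) = ψ (x e) := fun x => by
    simp
  have h2 : ∏ i : ι, (p * (if i = e then ψ true else 1) + (1 - p) * (if i = e then ψ false else 1))
      = ∏ i : ι, (if i = e then p * ψ true + (1 - p) * ψ false else 1) := by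
    refine prod_congr rfl fun i _ => ?_
    split_ifs <;> ring
  simp only [h1, h2] at h
  rw [h]; simp

lemma Ex_cs (h0 : 0 ≤ p) (h1 : p ≤ 1) (F G : (ι → Bool) → ℝ) :
    Ex p (fun x => F x * G x) ^ 2 ≤ Ex p (fun x => F x ^ 2) * Ex p (fun x => G x ^ 2) := by
  unfold Ex
  apply sum_sq_le_sum_mul_sum_of_sq_le_mul
  · exact fun x _ => mul_nonneg (w_nonneg h0 h1 x) (sq_nonneg _)
  · exact fun x _ => mul_nonneg (w_nonneg h0 h1 x) (sq_nonneg _)
  · exact fun x _ => le_of_eq (by ring)

lemma Ex2_eq (F : (ι → Bool) → (ι → Bool) → ℝ) :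
    Ex p (fun x => Ex p (fun y => F x y))
      = ∑ z : (ι → Bool) × (ι → Bool), w p z.1 * w p z.2 * F z.1 z.2 := by
  rw [Fintype.sum_prod_type]
  simp only [Ex, mul_sum]
  exact sum_congr rfl fun x _ => sum_congr rfl fun y _ => by ring

lemma Ex2_cs (h0 : 0 ≤ p) (h1 : p ≤ 1) (F G : (ι → Bool) → (ι → Bool) → ℝ) :
    Ex p (fun x => Ex p (fun y => F x y * G x y)) ^ 2 ≤
      Ex p (fun x => Ex p (fun y => F x y ^ 2)) * Ex p (fun x => Ex p (fun y => G x y ^ 2)) := by
  simp only [Ex2_eq]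
  apply sum_sq_le_sum_mul_sum_of_sq_le_mul
  · exact fun x _ => mul_nonneg (mul_nonneg (w_nonneg h0 h1 _) (w_nonneg h0 h1 _)) (sq_nonneg _)
  · exact fun x _ => mul_nonneg (mul_nonneg (w_nonneg h0 h1 _) (w_nonneg h0 h1 _)) (sq_nonneg _)
  · exact fun x _ => le_of_eq (by ring)

lemma Ex_swap (A : Finset ι) (F : (ι → Bool) → (ι → Bool) → ℝ) :
    Ex p (fun x => Ex p (fun y => F (A.piecewise y x) (A.piecewise x y)))
      = Ex p (fun x => Ex p (fun y => F x y)) := by
  simp only [Ex2_eq]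
  let σ : (ι → Bool) × (ι → Bool) → (ι → Bool) × (ι → Bool) :=
    fun z => (A.piecewise z.2 z.1, A.piecewise z.1 z.2)
  have hσ : Function.Involutive σ := by
    intro z
    refine Prod.ext ?_ ?_ <;> funext i <;> by_cases hi : i ∈ A <;> simp [σ, piecewise, hi]
  refine Fintype.sum_equiv hσ.toPerm _ _ fun z => ?_
  have : w p z.1 * w p z.2 = w p (σ z).1 * w p (σ z).2 := by
    simp only [w, ← prod_mul_distrib]
    refine prod_congr rfl fun i _ => ?_
    by_cases hi : i ∈ A <;> simp [σ, piecewise, hi, mul_comm]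
  rw [this]; rfl

lemma Ex_piecewise (A : Finset ι) (G : (ι → Bool) → ℝ) :
    Ex p (fun x => Ex p (fun y => G (A.piecewise y x))) = Ex p G := by
  have h := Ex_swap (p := p) A (fun x _ => G x)
  simp only [Ex_const] at h
  exact h

lemma Ex_split (e : ι) (F : (ι → Bool) → ℝ) :
    Ex p F = Ex p (fun x => p * F (Function.update x e true)
      + (1 - p) * F (Function.update x e false)) := by
  rw [← Ex_piecewise {e} F]
  congr 1
  funext x
  rw [← Ex_coord e (fun b => F (Function.update x e b))]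
  congr 1
  funext y
  rw [piecewise_singleton]

lemma Ex_indep (e : ι) (ψ : Bool → ℝ) (G : (ι → Bool) → ℝ)
    (hG : ∀ x b, G (Function.update x e b) = G x) :
    Ex p (fun x => ψ (x e) * G x) = (p * ψ true + (1 - p) * ψ false) * Ex p G := by
  rw [Ex_split e, ← Ex_mul_left]
  congr 1
  funext x
  simp only [hG, Function.update_self]
  ring

lemma Ex_perm (π : Equiv.Perm ι) (F : (ι → Bool) → ℝ) :
    Ex p (fun x => F (x ∘ π)) = Ex p F := by
  unfold Ex
  refine Fintype.sum_equiv (Equiv.arrowCongr π.symm (Equiv.refl Bool)) _ _ fun x => ?_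
  have h1 : (Equiv.arrowCongr π.symm (Equiv.refl Bool)) x = x ∘ π := by
    funext i; simp [Equiv.arrowCongr_apply]
  rw [h1]
  congr 1
  unfold w
  exact (Equiv.prod_comp π (fun i => wb p (x i))).symm

/-! ### the biased Fourier basis -/

noncomputable def sd (p : ℝ) : ℝ := Real.sqrt (p * (1 - p))

noncomputable def phi (p : ℝ) (b : Bool) : ℝ := if b then (1 - p) / sd p else -p / sd p

noncomputable def chi (p : ℝ) (S : Finset ι) (x : ι → Bool) : ℝ := ∏ i ∈ S, phi p (x i)

noncomputable def hat (p : ℝ) (f : (ι → Bool) → ℝ) (S : Finset ι) : ℝ :=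
  Ex p (fun x => f x * chi p S x)

lemma sd_pos (h0 : 0 < p) (h1 : p < 1) : 0 < sd p :=
  Real.sqrt_pos.2 (mul_pos h0 (by linarith))

lemma sd_sq (h0 : 0 < p) (h1 : p < 1) : sd p ^ 2 = p * (1 - p) :=
  Real.sq_sqrt (mul_pos h0 (by linarith)).le

lemma phi_true : phi p true = (1 - p) / sd p := rfl
lemma phi_false : phi p false = -p / sd p := rfl

lemma m1 : p * phi p true + (1 - p) * phi p false = 0 := by
  rw [phi_true, phi_false]; ring

lemma m2 (h0 : 0 < p) (h1 : p < 1) : p * phi p true ^ 2 + (1 - p) * phi p false ^ 2 = 1 := by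
  have hs := (sd_pos h0 h1).ne'
  rw [phi_true, phi_false, div_pow, div_pow, sd_sq h0 h1]
  have : 1 - p ≠ 0 := by linarith
  field_simp
  ring

lemma m3 (h0 : 0 < p) (h1 : p < 1) :
    p * phi p true ^ 3 + (1 - p) * phi p false ^ 3 = (1 - 2 * p) / sd p := by
  have hs := (sd_pos h0 h1).ne'
  rw [phi_true, phi_false, div_pow, div_pow, pow_succ (sd p) 2, sd_sq h0 h1]
  have : 1 - p ≠ 0 := by linarith
  field_simp
  ring

lemma m4 (h0 : 0 < p) (h1 : p < 1) :
    p * phi p true ^ 4 + (1 - p) * phi p false ^ 4 = (1 - 3 * (p * (1 - p))) / sd p ^ 2 := by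
  have hs := (sd_pos h0 h1).ne'
  rw [phi_true, phi_false, div_pow, div_pow, show sd p ^ 4 = (sd p ^ 2) ^ 2 by ring, sd_sq h0 h1]
  have : 1 - p ≠ 0 := by linarith
  field_simp
  ring

lemma chi_eq (S : Finset ι) (x : ι → Bool) :
    chi p S x = ∏ i, if i ∈ S then phi p (x i) else 1 := by
  rw [chi, prod_ite_mem, univ_inter]

lemma Ex_chi_mul (h0 : 0 < p) (h1 : p < 1) (S T : Finset ι) :
    Ex p (fun x => chi p S x * chi p T x) = if S = T then 1 else 0 := by
  simp only [chi_eq, ← prod_mul_distrib]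
  rw [Ex_prod (fun i b => (if i ∈ S then phi p b else 1) * (if i ∈ T then phi p b else 1))]
  split_ifs with h
  · subst h
    refine prod_eq_one fun i _ => ?_
    by_cases hi : i ∈ S
    · simp only [hi, if_true]
      have := m2 h0 h1
      linarith
    · simp only [hi, if_false]; ring
  · obtain ⟨i, hi⟩ : ∃ i, ¬ (i ∈ S ↔ i ∈ T) := by
      by_contra hc
      push Not at hc
      exact h (Finset.ext hc)
    refine prod_eq_zero (mem_univ i) ?_
    have := m1 (p := p)
    by_cases hS : i ∈ S <;> by_cases hT : i ∈ T <;> simp only [hS, hT, if_true, if_false] <;>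
      first | linarith | (exfalso; tauto)

lemma Ex_chi (h0 : 0 < p) (h1 : p < 1) (S : Finset ι) :
    Ex p (fun x => chi p S x) = if S = ∅ then 1 else 0 := by
  rw [← Ex_chi_mul h0 h1 S ∅]
  simp [chi]

lemma expansion (h0 : 0 < p) (h1 : p < 1) (f : (ι → Bool) → ℝ) (x : ι → Bool) :
    f x = ∑ S, hat p f S * chi p S x := by
  have hs := sd_pos h0 h1
  have hs2 := sd_sq h0 h1
  have h2 : ∑ S, hat p f S * chi p S x
      = Ex p (fun y => f y * ∏ i, (1 + phi p (y i) * phi p (x i))) := by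
    simp only [hat, ← Ex_mul_right, ← Ex_sum]
    congr 1
    funext y
    rw [prod_one_add, powerset_univ, mul_sum]
    refine sum_congr rfl fun S _ => ?_
    simp only [chi, prod_mul_distrib]; ring
  rw [h2, Ex, sum_eq_single x]
  · rw [mul_left_comm, w, ← prod_mul_distrib, prod_eq_one, mul_one]
    intro i _
    have : 1 - p ≠ 0 := by linarith
    cases x i
    · simp only [wb, phi_false, Bool.false_eq_true, if_false]
      field_simp
      rw [hs2]; ring
    · simp only [wb, phi_true, if_true]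
      field_simp
      rw [hs2]; ring
  · intro y _ hy
    obtain ⟨i, hi⟩ := Function.ne_iff.1 hy
    rw [prod_eq_zero (mem_univ i), mul_zero, mul_zero]
    have key : 1 + phi p true * phi p false = 0 := by
      rw [phi_true, phi_false]
      field_simp
      rw [hs2]; ring
    cases hy' : y i <;> cases hx' : x i
    · exact absurd (hy'.trans hx'.symm) hi
    · rw [mul_comm]; exact key
    · exact key
    · exact absurd (hy'.trans hx'.symm) hi
  · intro h; exact absurd (mem_univ x) h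

lemma parseval (h0 : 0 < p) (h1 : p < 1) (f g : (ι → Bool) → ℝ) :
    Ex p (fun x => f x * g x) = ∑ S, hat p f S * hat p g S := by
  have : (fun x => f x * g x) = fun x => ∑ S, hat p g S * (f x * chi p S x) := by
    funext x
    conv_lhs => rw [expansion h0 h1 g x, mul_sum]
    exact sum_congr rfl fun S _ => by ring
  rw [this, Ex_sum]
  refine sum_congr rfl fun S _ => ?_
  rw [Ex_mul_left, mul_comm]; rfl

lemma parseval_sq (h0 : 0 < p) (h1 : p < 1) (f : (ι → Bool) → ℝ) :
    Ex p (fun x => f x ^ 2) = ∑ S, hat p f S ^ 2 := by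
  simp only [pow_two]
  exact parseval h0 h1 f f

lemma chi_update {S : Finset ι} {e : ι} (he : e ∉ S) (x : ι → Bool) (b : Bool) :
    chi p S (Function.update x e b) = chi p S x := by
  unfold chi
  refine prod_congr rfl fun i hi => ?_
  rw [Function.update_of_ne (ne_of_mem_of_not_mem hi he)]

/-- Bonami's lemma, weighted form. -/
lemma bonami (h0 : 0 < p) (h1 : p < 1) (A : Finset ι) (a : Finset ι → ℝ) :
    Ex p (fun x => (∑ T ∈ A.powerset, a T * chi p T x) ^ 4) ≤
      (∑ T ∈ A.powerset, (2 / sd p) ^ T.card * a T ^ 2) ^ 2 := by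
  have hs := sd_pos h0 h1
  have hs2 := sd_sq h0 h1
  have hc : 4 ≤ 2 / sd p := by
    rw [le_div_iff₀ hs]
    nlinarith [sq_nonneg (p - 1 / 2)]
  induction A using Finset.induction_on generalizing a with
  | empty => simp [chi, Ex_const]; exact le_of_eq (by ring)
  | insert e A he ih =>
    set c := 2 / sd p with hcdef
    set G : (ι → Bool) → ℝ := fun x => ∑ T ∈ A.powerset, a T * chi p T x with hG
    set H : (ι → Bool) → ℝ := fun x => ∑ T ∈ A.powerset, a (insert e T) * chi p T x with hH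
    set QG := ∑ T ∈ A.powerset, c ^ T.card * a T ^ 2 with hQG
    set QH := ∑ T ∈ A.powerset, c ^ T.card * a (insert e T) ^ 2 with hQH
    have hG4 : Ex p (fun x => G x ^ 4) ≤ QG ^ 2 := ih a
    have hH4 : Ex p (fun x => H x ^ 4) ≤ QH ^ 2 := ih fun T => a (insert e T)
    have hc0 : 0 ≤ c := by linarith
    have hQG0 : 0 ≤ QG := sum_nonneg fun T _ => by positivity
    have hQH0 : 0 ≤ QH := sum_nonneg fun T _ => by positivity
    have hnot : ∀ T ∈ A.powerset, e ∉ T := fun T hT h => he (mem_powerset.1 hT h)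
    have hGi : ∀ x b, G (Function.update x e b) = G x := fun x b =>
      sum_congr rfl fun T hT => by rw [chi_update (hnot T hT)]
    have hHi : ∀ x b, H (Function.update x e b) = H x := fun x b =>
      sum_congr rfl fun T hT => by rw [chi_update (hnot T hT)]
    have e1 : ∀ x, ∑ T ∈ (insert e A).powerset, a T * chi p T x = G x + phi p (x e) * H x := by
      intro x
      rw [sum_powerset_insert he, hH, mul_sum]
      congr 1
      refine sum_congr rfl fun T hT => ?_
      rw [chi, prod_insert (hnot T hT), chi]; ring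
    have e2 : ∑ T ∈ (insert e A).powerset, c ^ T.card * a T ^ 2 = QG + c * QH := by
      rw [sum_powerset_insert he, hQH, mul_sum]
      congr 1
      refine sum_congr rfl fun T hT => ?_
      rw [card_insert_of_notMem (hnot T hT)]; ring
    simp only [e1, e2]
    have e3 : Ex p (fun x => (G x + phi p (x e) * H x) ^ 4) =
        Ex p (fun x => G x ^ 4 + 6 * (G x * H x) ^ 2 + 4 * ((1 - 2 * p) / sd p) * (G x * H x ^ 3)
          + ((1 - 3 * (p * (1 - p))) / sd p ^ 2) * H x ^ 4) := by
      rw [Ex_split e]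
      congr 1
      funext x
      simp only [hGi, hHi, Function.update_self]
      rw [← m3 h0 h1, ← m4 h0 h1]
      have a1 := m1 (p := p)
      have a2 := m2 h0 h1
      linear_combination (4 * G x ^ 3 * H x) * a1 + (6 * G x ^ 2 * H x ^ 2) * a2
    have hm3 : ((1 - 2 * p) / sd p) ^ 2 ≤ 1 / sd p ^ 2 := by
      rw [div_pow]
      gcongr
      nlinarith
    have hm4 : (1 - 3 * (p * (1 - p))) / sd p ^ 2 ≤ 1 / sd p ^ 2 := by
      gcongr
      nlinarith
    have e4 : Ex p (fun x => (G x + phi p (x e) * H x) ^ 4) ≤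
        Ex p (fun x => G x ^ 4 + 8 * (G x ^ 2 * H x ^ 2) + c ^ 2 * H x ^ 4) := by
      rw [e3]
      refine Ex_mono h0.le h1.le fun x => ?_
      have hc2 : c ^ 2 = 4 * (1 / sd p ^ 2) := by rw [hcdef]; field_simp; norm_num
      have hH0 : 0 ≤ H x ^ 4 := by positivity
      have hu : 0 ≤ 1 / sd p ^ 2 := by positivity
      set t := (1 - 2 * p) / sd p
      have b1 : 4 * t * (G x * H x ^ 3) ≤ 2 * (G x ^ 2 * H x ^ 2) + 2 * t ^ 2 * H x ^ 4 := by
        nlinarith [sq_nonneg (G x * H x - t * H x ^ 2)]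
      have b2 := mul_le_mul_of_nonneg_right hm3 hH0
      have b3 := mul_le_mul_of_nonneg_right hm4 hH0
      have b4 := mul_nonneg hu hH0
      rw [hc2]
      nlinarith
    rw [Ex_add, Ex_add, Ex_mul_left, Ex_mul_left] at e4
    have e5 : Ex p (fun x => G x ^ 2 * H x ^ 2) ≤ QG * QH := by
      apply le_of_sq_le_sq _ (mul_nonneg hQG0 hQH0)
      refine (Ex_cs h0.le h1.le _ _).trans ?_
      simp only [← pow_mul]
      rw [mul_pow]
      exact mul_le_mul hG4 hH4 (Ex_nonneg h0.le h1.le fun x => Even.pow_nonneg (by decide) _)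
        (sq_nonneg _)
    have e6 : c ^ 2 * Ex p (fun x => H x ^ 4) ≤ c ^ 2 * QH ^ 2 := by gcongr
    have e7 : 8 * (QG * QH) ≤ 2 * c * (QG * QH) :=
      mul_le_mul_of_nonneg_right (by linarith) (mul_nonneg hQG0 hQH0)
    nlinarith

end Crest.Agent.R56
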