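import Mathlib
import Crest.Agent.R56.Fourier

set_option autoImplicit false
set_option linter.unusedSectionVars false
open Finset

namespace Crest.Agent.R56

variable {ι : Type*} [Fintype ι] [DecidableEq ι] {p : ℝ}

lemma chi_congr {S : Finset ι} {x y : ι → Bool} (h : ∀ i ∈ S, x i = y i) :
    chi p S x = chi p S y :=
  prod_congr rfl fun i hi => by rw [h i hi]

lemma chi_split (T A : Finset ι) (x : ι → Bool) :
    chi p T x = chi p (T \ A) x * chi p (T ∩ A) x := by
  unfold chi
  rw [mul_comm, prod_inter_mul_prod_sdiff]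

lemma resample (h0 : 0 < p) (h1 : p < 1) (T A : Finset ι) (g : (ι → Bool) → ℝ) :
    Ex p (fun x => Ex p (fun y => chi p T x * g (A.piecewise y x)))
      = if Disjoint T A then hat p g T else 0 := by
  have h := Ex_swap (p := p) A (fun x y => (g x * chi p (T \ A) x) * chi p (T ∩ A) y)
  have e : ∀ x y : ι → Bool, (g (A.piecewise y x) * chi p (T \ A) (A.piecewise y x)) *
      chi p (T ∩ A) (A.piecewise x y) = chi p T x * g (A.piecewise y x) := by
    intro x y
    rw [chi_split T A x,
      chi_congr (x := A.piecewise y x) (y := x)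
        (fun i hi => piecewise_eq_of_notMem _ _ _ (mem_sdiff.1 hi).2),
      chi_congr (x := A.piecewise x y) (y := x)
        (fun i hi => piecewise_eq_of_mem _ _ _ (mem_inter.1 hi).2)]
    ring
  simp only [e] at h
  rw [h]
  simp only [Ex_mul_left, Ex_chi h0 h1, Ex_mul_right]
  by_cases hd : Disjoint T A
  · rw [if_pos hd, if_pos (disjoint_iff_inter_eq_empty.1 hd), mul_one, sdiff_eq_self_of_disjoint hd]
    rfl
  · rw [if_neg hd, if_neg (fun h => hd (disjoint_iff_inter_eq_empty.2 h)), mul_zero]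

noncomputable def eta (p : ℝ) (f : (ι → Bool) → ℝ) (A : Finset ι) : ℝ :=
  Ex p (fun x => Ex p (fun y => (f x - f (A.piecewise y x)) ^ 2))

lemma eta_nonneg (h0 : 0 < p) (h1 : p < 1) (f : (ι → Bool) → ℝ) (A : Finset ι) :
    0 ≤ eta p f A :=
  Ex_nonneg h0.le h1.le fun _ => Ex_nonneg h0.le h1.le fun _ => sq_nonneg _

lemma eta_eq (h0 : 0 < p) (h1 : p < 1) (f : (ι → Bool) → ℝ) (A : Finset ι) :
    eta p f A = 2 * ∑ S, if Disjoint S A then 0 else hat p f S ^ 2 := by
  have e1 : ∀ x y : ι → Bool, (f x - f (A.piecewise y x)) ^ 2 =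
      f x ^ 2 + f (A.piecewise y x) ^ 2 -
        ∑ S, (2 * hat p f S) * (chi p S x * f (A.piecewise y x)) := by
    intro x y
    have : ∑ S, (2 * hat p f S) * (chi p S x * f (A.piecewise y x))
        = 2 * (∑ S, hat p f S * chi p S x) * f (A.piecewise y x) := by
      rw [mul_sum, sum_mul]
      exact sum_congr rfl fun S _ => by ring
    rw [this, ← expansion h0 h1 f x]; ring
  unfold eta
  simp only [e1, Ex_sub, Ex_add, Ex_sum, Ex_const, Ex_mul_left (2 * hat p f _)]
  rw [Ex_piecewise A (fun x => f x ^ 2), parseval_sq h0 h1]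
  simp only [resample h0 h1]
  rw [← sum_add_distrib, ← sum_sub_distrib, mul_sum]
  refine sum_congr rfl fun S _ => ?_
  split_ifs <;> ring

def fam (A : Finset ι) (D : ℕ) : Finset (Finset ι) :=
  A.powerset.filter (fun T => 1 ≤ T.card ∧ T.card ≤ D)

lemma mem_fam {A : Finset ι} {D : ℕ} {T : Finset ι} :
    T ∈ fam A D ↔ T ⊆ A ∧ 1 ≤ T.card ∧ T.card ≤ D := by
  simp [fam]

lemma two_div_sd (h0 : 0 < p) (h1 : p < 1) : 4 ≤ 2 / sd p := by
  have hs := sd_pos h0 h1
  have hs2 := sd_sq h0 h1
  rw [le_div_iff₀ hs]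
  nlinarith [sq_nonneg (p - 1 / 2)]

/-- level-`D` inequality -/
lemma level (h0 : 0 < p) (h1 : p < 1) (g : (ι → Bool) → ℝ) (hg : ∀ x, g x = 0 ∨ g x = 1)
    (A : Finset ι) (D : ℕ) :
    (∑ T ∈ fam A D, hat p g T ^ 2) ^ 2 ≤ ((2 / sd p) ^ D) ^ 2 * eta p g A ^ 3 := by
  set a := ∑ T ∈ fam A D, hat p g T ^ 2 with ha
  set c := 2 / sd p with hc
  have hc1 : 1 ≤ c := by have := two_div_sd h0 h1; linarith
  have ha0 : 0 ≤ a := sum_nonneg fun T _ => sq_nonneg _
  set h : (ι → Bool) → ℝ := fun x => ∑ T ∈ fam A D, hat p g T * chi p T x with hh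
  have hη := eta_nonneg h0 h1 g A
  have h4 : Ex p (fun x => h x ^ 4) ≤ (c ^ D * a) ^ 2 := by
    have hb := bonami h0 h1 A (fun T => if 1 ≤ T.card ∧ T.card ≤ D then hat p g T else 0)
    have e : ∀ x, ∑ T ∈ A.powerset,
        (if 1 ≤ T.card ∧ T.card ≤ D then hat p g T else 0) * chi p T x = h x := by
      intro x
      rw [hh]
      simp only [fam, sum_filter, ite_mul, zero_mul]
    simp only [e] at hb
    refine hb.trans ?_
    apply pow_le_pow_left₀ (sum_nonneg fun T _ => by positivity)
    rw [ha, fam, sum_filter, mul_sum]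
    refine sum_le_sum fun T _ => ?_
    split_ifs with hT
    · exact mul_le_mul_of_nonneg_right (pow_le_pow_right₀ hc1 hT.2) (sq_nonneg _)
    · simp
  set δ : (ι → Bool) → (ι → Bool) → ℝ := fun x y => g x - g (A.piecewise y x) with hδ
  have hδ3 : ∀ x y, δ x y ^ 3 = δ x y := by
    intro x y
    rcases hg x with h2 | h2 <;> rcases hg (A.piecewise y x) with h3 | h3 <;>
      simp only [hδ, h2, h3] <;> norm_num
  have hδ4 : ∀ x y, (δ x y ^ 2) ^ 2 = δ x y ^ 2 := by
    intro x y
    calc (δ x y ^ 2) ^ 2 = δ x y ^ 3 * δ x y := by ring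
      _ = _ := by rw [hδ3]; ring
  have ea : a = Ex p (fun x => Ex p (fun y => (h x * δ x y) * δ x y ^ 2)) := by
    have e1 : ∀ x y, (h x * δ x y) * δ x y ^ 2 = ∑ T ∈ fam A D, (hat p g T * (g x * chi p T x)
        - hat p g T * (chi p T x * g (A.piecewise y x))) := by
      intro x y
      calc (h x * δ x y) * δ x y ^ 2 = h x * δ x y ^ 3 := by ring
        _ = h x * δ x y := by rw [hδ3]
        _ = _ := by
          rw [hh]
          simp only [sum_mul, hδ]
          exact sum_congr rfl fun T _ => by ring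
    simp only [e1, Ex_sum, Ex_sub, Ex_mul_left (hat p g _), Ex_const, resample h0 h1]
    refine sum_congr rfl fun T hT => ?_
    obtain ⟨hTA, hT1, -⟩ := mem_fam.1 hT
    have : ¬ Disjoint T A := by
      intro hd
      have := hd.mono_right hTA
      rw [disjoint_self, bot_eq_empty] at this
      rw [this] at hT1
      simp at hT1
    rw [if_neg this, mul_zero, sub_zero, pow_two]; rfl
  set X := Ex p (fun x => Ex p (fun y => (h x * δ x y) ^ 2)) with hX
  have hX0 : 0 ≤ X := Ex_nonneg h0.le h1.le fun _ => Ex_nonneg h0.le h1.le fun _ => sq_nonneg _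
  have s1 : a ^ 2 ≤ X * eta p g A := by
    conv_lhs => rw [ea]
    refine (Ex2_cs h0.le h1.le _ _).trans (le_of_eq ?_)
    simp only [hδ4]; rfl
  have s2 : X ^ 2 ≤ (c ^ D * a) ^ 2 * eta p g A := by
    have e2 : X = Ex p (fun x => Ex p (fun y => h x ^ 2 * δ x y ^ 2)) := by
      simp only [hX, mul_pow]
    rw [e2]
    refine (Ex2_cs h0.le h1.le _ _).trans ?_
    simp only [hδ4, Ex_const, ← pow_mul]
    exact mul_le_mul_of_nonneg_right h4 hη
  rcases ha0.eq_or_lt with h2 | h2
  · rw [← h2, zero_pow two_ne_zero]; positivity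
  · have s3 : a ^ 2 * a ^ 2 ≤ a ^ 2 * ((c ^ D) ^ 2 * eta p g A ^ 3) := by
      calc a ^ 2 * a ^ 2 ≤ (X * eta p g A) * (X * eta p g A) := by gcongr
        _ = X ^ 2 * eta p g A ^ 2 := by ring
        _ ≤ ((c ^ D * a) ^ 2 * eta p g A) * eta p g A ^ 2 := by gcongr
        _ = _ := by ring
    exact le_of_mul_le_mul_left s3 (by positivity)

/-- restriction of `f` to the coordinates of `B`, the others being frozen to `x`. -/
def res (B : Finset ι) (f : (ι → Bool) → ℝ) (x : ι → Bool) : (ι → Bool) → ℝ :=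
  fun y => f (B.piecewise y x)

lemma hat_res (B T S' : Finset ι) (hT : T ⊆ B) (hS : Disjoint S' B) (f : (ι → Bool) → ℝ) :
    hat p (fun x => hat p (res B f x) T) S' = hat p f (S' ∪ T) := by
  have hd : Disjoint S' T := hS.mono_right hT
  rw [hat, hat, ← Ex_piecewise B (fun x => f x * chi p (S' ∪ T) x)]
  congr 1
  funext x
  rw [hat, ← Ex_mul_right]
  congr 1
  funext y
  have : chi p (S' ∪ T) (B.piecewise y x) = chi p S' x * chi p T y := by
    rw [chi, prod_union hd]
    congr 1
    · exact chi_congr fun i hi => piecewise_eq_of_notMem _ _ _ (disjoint_left.1 hS hi)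
    · exact chi_congr fun i hi => piecewise_eq_of_mem _ _ _ (hT hi)
  rw [this, res]; ring

lemma fiber_le (h0 : 0 < p) (h1 : p < 1) (B T : Finset ι) (hT : T ⊆ B) (f : (ι → Bool) → ℝ) :
    ∑ S ∈ univ.filter (fun S => S ∩ B = T), hat p f S ^ 2 ≤
      Ex p (fun x => hat p (res B f x) T ^ 2) := by
  rw [parseval_sq h0 h1]
  have e : ∑ S ∈ univ.filter (fun S => S ∩ B = T), hat p f S ^ 2 =
      ∑ S ∈ univ.filter (fun S => S ∩ B = T),
        hat p (fun x => hat p (res B f x) T) (S \ B) ^ 2 := by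
    refine sum_congr rfl fun S hS => ?_
    rw [hat_res B T _ hT disjoint_sdiff_self_left, ← (mem_filter.1 hS).2, sdiff_union_inter]
  rw [e, ← sum_image (s := univ.filter (fun S => S ∩ B = T)) (g := fun S => S \ B)
    (f := fun S' => hat p (fun x => hat p (res B f x) T) S' ^ 2)]
  · exact sum_le_sum_of_subset_of_nonneg (subset_univ _) fun _ _ _ => sq_nonneg _
  · intro S hS S' hS' h
    have h2 := (mem_filter.1 (mem_coe.1 hS)).2
    have h3 := (mem_filter.1 (mem_coe.1 hS')).2
    rw [← sdiff_union_inter S B, ← sdiff_union_inter S' B, h2, h3]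
    exact congrArg (· ∪ T) h

lemma Ex_eta_res (B A : Finset ι) (hA : A ⊆ B) (f : (ι → Bool) → ℝ) :
    Ex p (fun x => eta p (res B f x) A) = eta p f A := by
  unfold eta
  rw [← Ex_piecewise B (fun x => Ex p (fun y => (f x - f (A.piecewise y x)) ^ 2))]
  congr 1
  funext x
  congr 1
  funext y
  congr 1
  funext y'
  simp only [res]
  congr 3
  funext i
  by_cases hi : i ∈ A
  · simp [piecewise, hi, hA hi]
  · simp [piecewise, hi]

lemma hat_res_perm (B T : Finset ι) (f : (ι → Bool) → ℝ) (π : Equiv.Perm ι)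
    (hπ : ∀ e, e ∉ B → π e = e) (hf : ∀ x, f (x ∘ π) = f x) (x : ι → Bool) :
    hat p (res B f x) (T.map π.toEmbedding) = hat p (res B f x) T := by
  rw [hat, hat, ← Ex_perm π (fun y => res B f x y * chi p T y)]
  congr 1
  funext y
  congr 1
  · simp only [res]
    rw [← hf]
    congr 1
    funext i
    by_cases hi : i ∈ B
    · have : π i ∈ B := by
        by_contra hc
        have h2 := π.injective (hπ _ hc)
        rw [h2] at hc
        exact hc hi
      simp [piecewise, hi, this]
    · simp [piecewise, hi, hπ i hi]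
  · simp [chi]

noncomputable def Jf (p : ℝ) (f : (ι → Bool) → ℝ) : ℝ := ∑ S, (S.card : ℝ) * hat p f S ^ 2

lemma fam_map (A : Finset ι) (D : ℕ) (π : Equiv.Perm ι) (F : Finset ι → ℝ) :
    ∑ T ∈ fam (A.map π.toEmbedding) D, F T = ∑ T ∈ fam A D, F (T.map π.toEmbedding) := by
  symm
  refine sum_equiv (Equiv.finsetCongr π) (fun T => ?_) fun T _ => rfl
  simp only [mem_fam, Equiv.finsetCongr_apply, card_map, map_subset_map]

/-- the bound for a fixed family of disjoint symmetric blocks -/
theorem perL {U : Type*} [DecidableEq U] (h0 : 0 < p) (h1 : p < 1) (f : (ι → Bool) → ℝ)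
    (hf : ∀ x, f x = 0 ∨ f x = 1) (B : Finset ι) (L : Finset U) (A : U → Finset ι)
    (hAB : ∀ u ∈ L, A u ⊆ B) (hdisj : (L : Set U).PairwiseDisjoint A)
    (hsym : ∀ u ∈ L, ∀ v ∈ L, ∃ π : Equiv.Perm ι, (∀ e, e ∉ B → π e = e) ∧
      (∀ x, f (x ∘ π) = f x) ∧ (A u).map π.toEmbedding = A v)
    (D : ℕ) (K : ℝ) (hK : 0 ≤ K) (hKl : ((2 / sd p) ^ D) ^ 2 ≤ L.card * K ^ 3) :
    ∑ u ∈ L, ∑ S ∈ univ.filter (fun S => S ∩ B ∈ fam (A u) D), hat p f S ^ 2 ≤
      2 * K * Jf p f := by
  have step1 : ∀ u ∈ L, ∑ S ∈ univ.filter (fun S => S ∩ B ∈ fam (A u) D), hat p f S ^ 2 ≤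
      Ex p (fun x => ∑ T ∈ fam (A u) D, hat p (res B f x) T ^ 2) := by
    intro u hu
    rw [Ex_sum, ← sum_fiberwise_of_maps_to (t := fam (A u) D) (g := fun S => S ∩ B)
      (fun S hS => (mem_filter.1 hS).2)]
    refine sum_le_sum fun T hT => ?_
    refine le_trans ?_ (fiber_le h0 h1 B T ((mem_fam.1 hT).1.trans (hAB u hu)) f)
    refine sum_le_sum_of_subset_of_nonneg (fun S hS => ?_) fun _ _ _ => sq_nonneg _
    exact mem_filter.2 ⟨mem_univ _, (mem_filter.1 hS).2⟩
  have step2 : ∀ u ∈ L, ∀ x, ∑ T ∈ fam (A u) D, hat p (res B f x) T ^ 2 ≤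
      K * eta p (res B f x) (A u) := by
    intro u hu x
    set g := res B f x with hg
    have hgb : ∀ y, g y = 0 ∨ g y = 1 := fun y => hf _
    set a := ∑ T ∈ fam (A u) D, hat p g T ^ 2 with ha
    have ha0 : 0 ≤ a := sum_nonneg fun T _ => sq_nonneg _
    have hsame : ∀ v ∈ L, ∑ T ∈ fam (A v) D, hat p g T ^ 2 = a := by
      intro v hv
      obtain ⟨π, hπ1, hπ2, hπ3⟩ := hsym u hu v hv
      rw [← hπ3, fam_map]
      exact sum_congr rfl fun T _ => by rw [hg, hat_res_perm B T f π hπ1 hπ2]
    have hsum : (L.card : ℝ) * a ≤ 1 := by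
      have e1 : (L.card : ℝ) * a = ∑ v ∈ L, ∑ T ∈ fam (A v) D, hat p g T ^ 2 := by
        rw [sum_congr rfl hsame, sum_const, nsmul_eq_mul]
      have hd : (L : Set U).PairwiseDisjoint (fun v => fam (A v) D) := by
        intro v hv v' hv' hne
        rw [Function.onFun, disjoint_left]
        intro T hT hT'
        have h2 := (hdisj hv hv' hne).mono (mem_fam.1 hT).1 (mem_fam.1 hT').1
        rw [disjoint_self, bot_eq_empty] at h2
        have h3 := (mem_fam.1 hT).2.1
        rw [h2] at h3
        simp at h3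
      rw [e1, ← sum_biUnion hd]
      calc _ ≤ ∑ T, hat p g T ^ 2 :=
            sum_le_sum_of_subset_of_nonneg (subset_univ _) fun _ _ _ => sq_nonneg _
        _ = Ex p (fun y => g y ^ 2) := (parseval_sq h0 h1 g).symm
        _ ≤ Ex p (fun _ : ι → Bool => (1 : ℝ)) := Ex_mono h0.le h1.le fun y => by
            rcases hgb y with h | h <;> rw [h] <;> norm_num
        _ = 1 := Ex_const 1
    have hlev := level h0 h1 g hgb (A u) D
    rw [← ha] at hlev
    have hη := eta_nonneg h0 h1 g (A u)
    have hL : (0 : ℝ) < L.card := by exact_mod_cast card_pos.2 ⟨u, hu⟩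
    apply le_of_pow_le_pow_left₀ (n := 3) (by norm_num) (mul_nonneg hK hη)
    calc a ^ 3 = a * a ^ 2 := by ring
      _ ≤ a * (((2 / sd p) ^ D) ^ 2 * eta p g (A u) ^ 3) := by gcongr
      _ ≤ a * ((L.card * K ^ 3) * eta p g (A u) ^ 3) := by gcongr
      _ = (L.card * a) * (K * eta p g (A u)) ^ 3 := by ring
      _ ≤ 1 * (K * eta p g (A u)) ^ 3 := by gcongr
      _ = _ := one_mul _
  calc _ ≤ ∑ u ∈ L, K * eta p f (A u) := by
        refine sum_le_sum fun u hu => (step1 u hu).trans ?_
        rw [← Ex_eta_res B (A u) (hAB u hu) f, ← Ex_mul_left]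
        exact Ex_mono h0.le h1.le (step2 u hu)
    _ = 2 * K * ∑ S, ∑ u ∈ L, if Disjoint S (A u) then 0 else hat p f S ^ 2 := by
        rw [sum_comm, mul_sum]
        refine sum_congr rfl fun u _ => ?_
        rw [eta_eq h0 h1]; ring
    _ ≤ 2 * K * Jf p f := by
        refine mul_le_mul_of_nonneg_left (sum_le_sum fun S _ => ?_) (by positivity)
        have hc : ∑ u ∈ L, (S ∩ A u).card ≤ S.card := by
          rw [← card_biUnion]
          · exact card_le_card (biUnion_subset.2 fun u _ => inter_subset_left)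
          · intro u hu v hv hne
            exact (hdisj hu hv hne).mono inter_subset_right inter_subset_right
        calc _ ≤ ∑ u ∈ L, ((S ∩ A u).card : ℝ) * hat p f S ^ 2 := by
              refine sum_le_sum fun u _ => ?_
              split_ifs with hd
              · positivity
              · have : 1 ≤ (S ∩ A u).card := card_pos.2 (not_disjoint_iff_nonempty_inter.1 hd)
                have h2 : (1 : ℝ) ≤ (S ∩ A u).card := by exact_mod_cast this
                nlinarith [sq_nonneg (hat p f S)]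
          _ = (∑ u ∈ L, (S ∩ A u).card : ℕ) * hat p f S ^ 2 := by
              rw [← sum_mul]; push_cast; rfl
          _ ≤ _ := by gcongr

noncomputable def infl (p : ℝ) (f : (ι → Bool) → ℝ) : ℝ :=
  ∑ e, Ex p (fun x => (f (Function.update x e true) - f (Function.update x e false)) ^ 2)

lemma Jf_eq (h0 : 0 < p) (h1 : p < 1) (f : (ι → Bool) → ℝ) :
    Jf p f = p * (1 - p) * infl p f := by
  have e1 : 2 * Jf p f = ∑ e, eta p f {e} := by
    simp only [eta_eq h0 h1]
    rw [← mul_sum, sum_comm, Jf]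
    congr 1
    refine sum_congr rfl fun S _ => ?_
    simp only [disjoint_singleton_right, ite_not, sum_ite_mem, univ_inter, sum_const, nsmul_eq_mul]
  have e2 : ∀ e, eta p f {e} = 2 * (p * (1 - p) *
      Ex p (fun x => (f (Function.update x e true) - f (Function.update x e false)) ^ 2)) := by
    intro e
    unfold eta
    have e3 : ∀ x : ι → Bool, Ex p (fun y => (f x - f (({e} : Finset ι).piecewise y x)) ^ 2) =
        (fun b : Bool => if b then 1 - p else p) (x e) *
          (f (Function.update x e true) - f (Function.update x e false)) ^ 2 := by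
      intro x
      simp only [piecewise_singleton]
      rw [Ex_coord e (fun b => (f x - f (Function.update x e b)) ^ 2)]
      cases hx : x e
      · have : Function.update x e false = x := by rw [← hx, Function.update_eq_self]
        simp only [this, Bool.false_eq_true, if_false]; ring
      · have : Function.update x e true = x := by rw [← hx, Function.update_eq_self]
        simp only [this, if_true]; ring
    simp only [e3]
    rw [Ex_indep e (fun b : Bool => if b then 1 - p else p)]
    · simp only [if_true, Bool.false_eq_true, if_false]; ring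
    · intro x b; simp only [Function.update_idem]
  simp only [e2] at e1
  rw [← mul_sum, ← mul_sum] at e1
  unfold infl
  linarith

lemma var_eq (h0 : 0 < p) (h1 : p < 1) (f : (ι → Bool) → ℝ) (hf : ∀ x, f x = 0 ∨ f x = 1) :
    Ex p f * (1 - Ex p f) = ∑ S ∈ univ.erase ∅, hat p f S ^ 2 := by
  have e1 : Ex p f = ∑ S, hat p f S ^ 2 := by
    rw [← parseval_sq h0 h1]
    congr 1
    funext x
    rcases hf x with h | h <;> rw [h] <;> norm_num
  have e2 : hat p f ∅ = Ex p f := by simp [hat, chi]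
  rw [← add_sum_erase _ _ (mem_univ ∅), e2] at e1
  linarith

end Crest.Agent.R56
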