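import Mathlib
import Crest.Agent.R56.Level

set_option autoImplicit false
set_option linter.unusedSectionVars false
open Finset

namespace Crest.Agent.R56

variable {ι : Type*} [Fintype ι] [DecidableEq ι] {p : ℝ} {n r : ℕ}

lemma low_deg (V : ι → Finset (Fin n)) (hV : Function.Injective V) (hcard : ∀ e, (V e).card = r)
    (hr : 2 ≤ r) (S : Finset ι) (hS : S.Nonempty) (d D : ℕ) (hd : S.card ≤ d)
    (hdD : (r * d) ^ (r - 1) < (D + 1) ^ r) :
    ∃ u ∈ S.biUnion V, (S.filter (fun e => u ∈ V e)).card ≤ D := by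
  by_contra hcon
  push Not at hcon
  set W := S.biUnion V with hW
  have h1 : ∑ u ∈ W, (S.filter (fun e => u ∈ V e)).card = S.card * r := by
    simp only [card_filter]
    rw [sum_comm, ← smul_eq_mul, ← sum_const]
    refine sum_congr rfl fun e he => ?_
    rw [← card_filter, ← hcard e]
    congr 1
    ext u
    simp only [mem_filter, and_iff_right_iff_imp]
    intro hu
    exact mem_biUnion.2 ⟨e, he, hu⟩
  have h2 : W.card * (D + 1) ≤ r * d := by
    calc W.card * (D + 1) = ∑ _u ∈ W, (D + 1) := by rw [sum_const, smul_eq_mul]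
      _ ≤ ∑ u ∈ W, (S.filter (fun e => u ∈ V e)).card := sum_le_sum fun u hu => hcon u hu
      _ = S.card * r := h1
      _ ≤ r * d := by rw [mul_comm]; exact Nat.mul_le_mul_left _ hd
  obtain ⟨e₀, he₀⟩ := hS
  obtain ⟨u, hu⟩ : (V e₀).Nonempty := card_pos.1 (by rw [hcard]; omega)
  have huW : u ∈ W := mem_biUnion.2 ⟨e₀, he₀, hu⟩
  have h3 : (S.filter (fun e => u ∈ V e)).card ≤ W.card ^ (r - 1) := by
    refine le_trans ?_ (Nat.choose_le_pow _ _)
    rw [← card_powersetCard]
    refine card_le_card_of_injOn (fun e => (V e).erase u) (fun e he => ?_) ?_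
    · have he' := mem_filter.1 (mem_coe.1 he)
      refine mem_coe.2 (mem_powersetCard.2 ⟨(erase_subset _ _).trans
        (subset_biUnion_of_mem V he'.1), ?_⟩)
      rw [card_erase_of_mem he'.2, hcard]
    · intro e he e' he' h
      have h4 := (mem_filter.1 (mem_coe.1 he)).2
      have h5 := (mem_filter.1 (mem_coe.1 he')).2
      apply hV
      rw [← insert_erase h4, ← insert_erase h5]
      exact congrArg (insert u) h
  have h4 : D + 1 ≤ W.card ^ (r - 1) := (hcon u huW).trans_le h3
  have h5 : (D + 1) ^ r ≤ (r * d) ^ (r - 1) := by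
    calc (D + 1) ^ r = (D + 1) * (D + 1) ^ (r - 1) := by
          rw [← pow_succ']; congr 1; omega
      _ ≤ W.card ^ (r - 1) * (D + 1) ^ (r - 1) := Nat.mul_le_mul_right _ h4
      _ = (W.card * (D + 1)) ^ (r - 1) := by rw [mul_pow]
      _ ≤ _ := Nat.pow_le_pow_left h2 _
  omega

lemma count_L (W : Finset (Fin n)) (u : Fin n) (hu : u ∈ W) (l : ℕ) (hl : 2 ≤ l)
    (hWl : 2 * W.card * l ≤ n) :
    n.choose l * l ≤
      2 * n * (((univ : Finset (Fin n)).powersetCard l).filter (fun L => W ∩ L = {u})).card := by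
  have hv : 1 ≤ W.card := card_pos.2 ⟨u, hu⟩
  have hn : 2 * l ≤ n := le_trans (by nlinarith) hWl
  set P := (univ : Finset (Fin n)).powersetCard l with hP
  obtain ⟨l', rfl⟩ : ∃ l', l = l' + 2 := ⟨l - 2, by omega⟩
  obtain ⟨n', rfl⟩ : ∃ n', n = n' + 2 := ⟨n - 2, by omega⟩
  have c1 : (P.filter ({u} ⊆ ·)).card = (n' + 1).choose (l' + 1) := by
    rw [hP, card_filter_powersetCard_subset _ _ _ (subset_univ _) (by simp)]
    simp
  have c2 : ∀ v ∈ W.erase u, (P.filter ({u, v} ⊆ ·)).card = n'.choose l' := by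
    intro v hv
    have : ({u, v} : Finset (Fin (n' + 2))).card = 2 := card_pair (ne_of_mem_erase hv).symm
    rw [hP, card_filter_powersetCard_subset _ _ _ (subset_univ _) (by omega), this]
    simp
  have hsub : P.filter ({u} ⊆ ·) ⊆ P.filter (fun L => W ∩ L = {u}) ∪
      (W.erase u).biUnion (fun v => P.filter ({u, v} ⊆ ·)) := by
    intro L hL
    obtain ⟨hLP, huL⟩ := mem_filter.1 hL
    have huL' : u ∈ L := singleton_subset_iff.1 huL
    by_cases h : W ∩ L = {u}
    · exact mem_union_left _ (mem_filter.2 ⟨hLP, h⟩)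
    · refine mem_union_right _ ?_
      obtain ⟨v, hv1, hv2⟩ : ∃ v ∈ W ∩ L, v ≠ u := by
        by_contra hc
        push Not at hc
        exact h (eq_singleton_iff_unique_mem.2 ⟨mem_inter.2 ⟨hu, huL'⟩, hc⟩)
      refine mem_biUnion.2 ⟨v, mem_erase.2 ⟨hv2, (mem_inter.1 hv1).1⟩, mem_filter.2 ⟨hLP, ?_⟩⟩
      exact insert_subset huL' (singleton_subset_iff.2 (mem_inter.1 hv1).2)
  have h1 : (n' + 1).choose (l' + 1) ≤
      (P.filter (fun L => W ∩ L = {u})).card + W.card * n'.choose l' := by
    rw [← c1]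
    refine (card_le_card hsub).trans ((card_union_le _ _).trans (Nat.add_le_add_left ?_ _))
    refine card_biUnion_le.trans ?_
    rw [sum_congr rfl c2, sum_const, smul_eq_mul]
    exact Nat.mul_le_mul_right _ card_erase_le
  have h2 := Nat.add_one_mul_choose_eq (n' + 1) (l' + 1)
  have h3 := Nat.add_one_mul_choose_eq n' l'
  have h4 : 2 * (W.card * n'.choose l') ≤ (n' + 1).choose (l' + 1) := by
    apply Nat.le_of_mul_le_mul_left (c := n' + 1) _ (by omega)
    calc (n' + 1) * (2 * (W.card * n'.choose l')) = 2 * W.card * ((n' + 1) * n'.choose l') := by ring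
      _ = (2 * W.card * (l' + 1)) * (n' + 1).choose (l' + 1) := by rw [h3]; ring
      _ ≤ _ := Nat.mul_le_mul_right _ (by nlinarith)
  change (n' + 1 + 1).choose (l' + 1 + 1) * (l' + 1 + 1) ≤ _
  rw [← h2]
  nlinarith

theorem star (h0 : 0 < p) (h1 : p < 1) (f : (ι → Bool) → ℝ) (hf : ∀ x, f x = 0 ∨ f x = 1)
    (V : ι → Finset (Fin n)) (hV : Function.Injective V) (hcard : ∀ e, (V e).card = r)
    (hr : 2 ≤ r)
    (hsym : ∀ σ : Equiv.Perm (Fin n), ∃ π : Equiv.Perm ι,
      (∀ e, V (π e) = (V e).map σ.toEmbedding) ∧ ∀ x, f (x ∘ π) = f x)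
    (D d l : ℕ) (hl : 2 ≤ l) (hln : l ≤ n) (hdl : 2 * (r * d) * l ≤ n)
    (hdD : (r * d) ^ (r - 1) < (D + 1) ^ r) (K : ℝ) (hK : 0 ≤ K)
    (hKl : ((2 / sd p) ^ D) ^ 2 ≤ l * K ^ 3) :
    Ex p f * (1 - Ex p f) ≤ (1 / (d + 1) + 4 * n * K / l) * Jf p f := by
  set P := (univ : Finset (Fin n)).powersetCard l with hP
  let B : Finset (Fin n) → Finset ι := fun L => univ.filter (fun e => (V e ∩ L).Nonempty)
  let A : Finset (Fin n) → Fin n → Finset ι := fun L u => univ.filter (fun e => V e ∩ L = {u})
  have hJ : 0 ≤ Jf p f := sum_nonneg fun S _ => by positivity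
  have hL : ∀ L ∈ P, ∑ u ∈ L, ∑ S ∈ univ.filter (fun S => S ∩ B L ∈ fam (A L u) D),
      hat p f S ^ 2 ≤ 2 * K * Jf p f := by
    intro L hL
    have hLc : L.card = l := (mem_powersetCard.1 hL).2
    refine perL h0 h1 f hf (B L) L (A L) (fun u _ e he => ?_) ?_ ?_ D K hK (by rw [hLc]; exact hKl)
    · refine mem_filter.2 ⟨mem_univ _, ?_⟩
      rw [(mem_filter.1 he).2]; exact singleton_nonempty u
    · intro u _ v _ huv
      rw [Function.onFun, disjoint_left]
      intro e he he'
      exact huv (singleton_injective ((mem_filter.1 he).2.symm.trans (mem_filter.1 he').2))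
    · intro u hu v hv
      obtain ⟨π, hπ1, hπ2⟩ := hsym (Equiv.swap u v)
      have hLmap : L.map (Equiv.swap u v).toEmbedding = L := by
        ext a
        simp only [mem_map_equiv, Equiv.symm_swap]
        by_cases h1 : a = u
        · subst h1; simp [hu, hv]
        · by_cases h2 : a = v
          · subst h2; simp [hu, hv]
          · rw [Equiv.swap_apply_of_ne_of_ne h1 h2]
      have hinter : ∀ e, V (π e) ∩ L = (V e ∩ L).map (Equiv.swap u v).toEmbedding := by
        intro e
        rw [map_inter, hLmap, hπ1]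
      refine ⟨π, fun e he => ?_, hπ2, ?_⟩
      · apply hV
        rw [hπ1]
        have he' : ∀ a ∈ L, a ∉ V e := by
          intro a ha hae
          exact he (mem_filter.2 ⟨mem_univ _, a, mem_inter.2 ⟨hae, ha⟩⟩)
        ext a
        simp only [mem_map_equiv, Equiv.symm_swap]
        by_cases h1 : a = u
        · subst h1; simp [he' _ hu, he' _ hv]
        · by_cases h2 : a = v
          · subst h2; simp [he' _ hu, he' _ hv]
          · rw [Equiv.swap_apply_of_ne_of_ne h1 h2]
      · ext e
        rw [mem_map_equiv]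
        simp only [A, mem_filter, mem_univ, true_and]
        conv_rhs => rw [← π.apply_symm_apply e, hinter]
        have : ({v} : Finset (Fin n)) = ({u} : Finset (Fin n)).map (Equiv.swap u v).toEmbedding := by
          simp
        rw [this, map_inj]
  let Sm : Finset (Finset ι) := univ.filter (fun S => S.Nonempty ∧ S.card ≤ d)
  have hlow : ∀ S ∈ Sm, (n.choose l : ℝ) * l / (2 * n) ≤
      ∑ L ∈ P, ∑ u ∈ L, if S ∩ B L ∈ fam (A L u) D then (1 : ℝ) else 0 := by
    intro S hS
    obtain ⟨hS1, hS2⟩ := (mem_filter.1 hS).2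
    obtain ⟨u, hu, hdeg⟩ := low_deg V hV hcard hr S hS1 d D hS2 hdD
    set W := S.biUnion V with hW
    have hWc : W.card ≤ r * d := by
      refine card_biUnion_le.trans ?_
      rw [sum_congr rfl (fun e _ => hcard e), sum_const, smul_eq_mul, mul_comm]
      exact Nat.mul_le_mul_left _ hS2
    have hc := count_L W u hu l hl (le_trans (by gcongr) hdl)
    have hn : (0 : ℝ) < n := by exact_mod_cast (by omega : 0 < n)
    rw [div_le_iff₀ (by positivity), mul_comm _ (2 * (n : ℝ))]
    refine le_trans (by exact_mod_cast hc : (n.choose l : ℝ) * l ≤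
      2 * n * ((P.filter (fun L => W ∩ L = {u})).card : ℝ)) ?_
    refine mul_le_mul_of_nonneg_left ?_ (by positivity)
    rw [card_filter]
    push_cast
    refine sum_le_sum fun L _ => ?_
    split_ifs with hLW
    · have huL : u ∈ L := by
        have : u ∈ W ∩ L := by rw [hLW]; exact mem_singleton_self u
        exact (mem_inter.1 this).2
      have hkey : ∀ e ∈ S, (V e ∩ L).Nonempty → V e ∩ L = {u} := by
        intro e he hne
        refine (subset_singleton_iff.1 ?_).resolve_left hne.ne_empty
        rw [← hLW]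
        exact inter_subset_inter_right (subset_biUnion_of_mem V he)
      have hSB : S ∩ B L = S.filter (fun e => u ∈ V e) := by
        ext e
        simp only [B, mem_inter, mem_filter, mem_univ, true_and, and_congr_right_iff]
        intro he
        constructor
        · intro hne
          have : u ∈ V e ∩ L := by rw [hkey e he hne]; exact mem_singleton_self u
          exact (mem_inter.1 this).1
        · intro hue
          exact ⟨u, mem_inter.2 ⟨hue, huL⟩⟩
      have hmem : S ∩ B L ∈ fam (A L u) D := by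
        refine mem_fam.2 ⟨fun e he => ?_, ?_, by rw [hSB]; exact hdeg⟩
        · exact mem_filter.2 ⟨mem_univ _, hkey e (mem_inter.1 he).1
            (mem_filter.1 (mem_inter.1 he).2).2⟩
        · rw [hSB]
          obtain ⟨e, he, hue⟩ := mem_biUnion.1 hu
          exact card_pos.2 ⟨e, mem_filter.2 ⟨he, hue⟩⟩
      have := single_le_sum (f := fun u => if S ∩ B L ∈ fam (A L u) D then (1 : ℝ) else 0)
        (fun u _ => by split_ifs <;> norm_num) huL
      simp only [hmem, if_true] at this
      exact this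
    · exact sum_nonneg fun u _ => by split_ifs <;> norm_num
  have hch : (0 : ℝ) < n.choose l := by exact_mod_cast Nat.choose_pos hln
  have hl0 : (0 : ℝ) < l := by exact_mod_cast (by omega : 0 < l)
  have hn : (0 : ℝ) < n := by exact_mod_cast (by omega : 0 < n)
  have hsmall : ∑ S ∈ Sm, hat p f S ^ 2 ≤ 4 * n * K / l * Jf p f := by
    have h2 : (n.choose l : ℝ) * l / (2 * n) * ∑ S ∈ Sm, hat p f S ^ 2 ≤
        n.choose l * (2 * K * Jf p f) := by
      calc (n.choose l : ℝ) * l / (2 * n) * ∑ S ∈ Sm, hat p f S ^ 2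
          ≤ ∑ S ∈ Sm, (∑ L ∈ P, ∑ u ∈ L, if S ∩ B L ∈ fam (A L u) D then (1 : ℝ) else 0) *
              hat p f S ^ 2 := by
            rw [mul_sum]
            exact sum_le_sum fun S hS => mul_le_mul_of_nonneg_right (hlow S hS) (sq_nonneg _)
        _ ≤ ∑ S, (∑ L ∈ P, ∑ u ∈ L, if S ∩ B L ∈ fam (A L u) D then (1 : ℝ) else 0) *
              hat p f S ^ 2 := by
            refine sum_le_sum_of_subset_of_nonneg (subset_univ _) fun S _ _ => ?_
            exact mul_nonneg (sum_nonneg fun L _ => sum_nonneg fun u _ => by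
              split_ifs <;> norm_num) (sq_nonneg _)
        _ = ∑ L ∈ P, ∑ u ∈ L, ∑ S ∈ univ.filter (fun S => S ∩ B L ∈ fam (A L u) D),
              hat p f S ^ 2 := by
            simp only [sum_mul, sum_filter, ite_mul, one_mul, zero_mul]
            rw [sum_comm]
            refine sum_congr rfl fun L _ => ?_
            rw [sum_comm]
        _ ≤ ∑ _L ∈ P, 2 * K * Jf p f := sum_le_sum hL
        _ = _ := by rw [sum_const, nsmul_eq_mul, hP, card_powersetCard]; simp
    have h3 : (n.choose l : ℝ) * l / (2 * n) * (4 * n * K / l * Jf p f)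
        = n.choose l * (2 * K * Jf p f) := by
      field_simp; ring
    rw [← h3] at h2
    exact le_of_mul_le_mul_left h2 (by positivity)
  rw [var_eq h0 h1 f hf, add_mul]
  calc ∑ S ∈ univ.erase ∅, hat p f S ^ 2
      ≤ ∑ S : Finset ι, (1 / (d + 1) * ((S.card : ℝ) * hat p f S ^ 2) +
          if S.Nonempty ∧ S.card ≤ d then hat p f S ^ 2 else 0) := by
        refine le_trans (sum_le_sum fun S hS => ?_)
          (sum_le_sum_of_subset_of_nonneg (subset_univ _) fun S _ _ => ?_)
        · have hne : S.Nonempty := nonempty_iff_ne_empty.2 (ne_of_mem_erase hS)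
          by_cases hc : S.card ≤ d
          · rw [if_pos ⟨hne, hc⟩]
            have : 0 ≤ 1 / ((d : ℝ) + 1) * ((S.card : ℝ) * hat p f S ^ 2) := by positivity
            linarith
          · rw [if_neg (fun h => hc h.2), add_zero, ← mul_assoc]
            refine le_mul_of_one_le_left (sq_nonneg _) ?_
            rw [one_div_mul_eq_div, one_le_div (by positivity)]
            exact_mod_cast (not_le.1 hc)
        · have : 0 ≤ if S.Nonempty ∧ S.card ≤ d then hat p f S ^ 2 else 0 := by
            split_ifs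
            · exact sq_nonneg _
            · exact le_rfl
          positivity
    _ = 1 / (d + 1) * Jf p f + ∑ S ∈ Sm, hat p f S ^ 2 := by
        rw [sum_add_distrib, ← mul_sum, sum_filter]; rfl
    _ ≤ _ := by gcongr

end Crest.Agent.R56
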