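import Mathlib
import Crest.Agent.R56.Hyper

set_option autoImplicit false
set_option linter.unusedSectionVars false
open Finset

namespace Crest.Agent.R56

variable {ι : Type*} [Fintype ι] [DecidableEq ι] {p : ℝ} {n r : ℕ}

lemma poincare (h0 : 0 < p) (h1 : p < 1) (f : (ι → Bool) → ℝ) (hf : ∀ x, f x = 0 ∨ f x = 1) :
    Ex p f * (1 - Ex p f) ≤ Jf p f := by
  rw [var_eq h0 h1 f hf]
  refine le_trans (sum_le_sum fun S hS => ?_)
    (sum_le_sum_of_subset_of_nonneg (subset_univ _) fun S _ _ => by positivity)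
  have hne : S.Nonempty := nonempty_iff_ne_empty.2 (ne_of_mem_erase hS)
  refine le_mul_of_one_le_left (sq_nonneg _) ?_
  exact_mod_cast card_pos.2 hne

lemma infl_nonneg (h0 : 0 ≤ p) (h1 : p ≤ 1) (f : (ι → Bool) → ℝ) : 0 ≤ infl p f :=
  sum_nonneg fun _ _ => Ex_nonneg h0 h1 fun _ => sq_nonneg _

lemma exists_d (hr : 2 ≤ r) (D : ℕ) :
    ∃ d : ℕ, (r * d) ^ (r - 1) < (D + 1) ^ r ∧ (D + 1) ^ r ≤ (r * (d + 1)) ^ (r - 1) := by
  have hex : ∃ d : ℕ, (D + 1) ^ r ≤ (r * (d + 1)) ^ (r - 1) := by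
    refine ⟨(D + 1) ^ r, ?_⟩
    calc (D + 1) ^ r ≤ r * ((D + 1) ^ r + 1) := by nlinarith [Nat.zero_le ((D + 1) ^ r)]
      _ ≤ _ := Nat.le_self_pow (by omega) _
  classical
  refine ⟨Nat.find hex, ?_, Nat.find_spec hex⟩
  rcases h : Nat.find hex with _ | d
  · rw [mul_zero, zero_pow (by omega)]; positivity
  · exact not_le.1 (Nat.find_min hex (by omega : d < Nat.find hex))

lemma params (hr : 2 ≤ r) (n : ℕ) (hN : 724 ≤ Real.log n) (σ : ℝ) (hσ0 : 0 < σ) (hσ : σ ≤ 1 / 4) :
    ∃ (D d l : ℕ) (K : ℝ), 2 ≤ l ∧ l ≤ n ∧ 2 * (r * d) * l ≤ n ∧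
      (r * d) ^ (r - 1) < (D + 1) ^ r ∧ 0 ≤ K ∧ (4 / σ) ^ D ≤ l * K ^ 3 ∧
      (1 / (d + 1) + 4 * n * K / l) * σ ≤ 2 ^ 16 * r / Real.log n ^ ((r : ℝ) / ((r : ℝ) - 1)) := by
  set N := Real.log n with hNdef
  have hn0 : (0 : ℝ) < n := by
    rcases (Nat.cast_nonneg (α := ℝ) n).eq_or_lt with h | h
    · rw [hNdef, ← h, Real.log_zero] at hN; norm_num at hN
    · exact h
  set y := Real.exp (N / 24) with hy
  have hyk : ∀ k : ℕ, y ^ k = Real.exp (k * (N / 24)) := fun k => (Real.exp_nat_mul _ k).symm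
  have hy24 : y ^ 24 = n := by
    rw [hyk, show ((24 : ℕ) : ℝ) * (N / 24) = N by push_cast; ring, hNdef, Real.exp_log hn0]
  have hy2 : 2 ≤ y := by
    have := Real.add_one_le_exp (N / 24)
    linarith
  have hy0 : 0 < y := by linarith
  set Λ := Real.log (4 / σ) with hΛ
  have h16 : 16 ≤ 4 / σ := by rw [le_div_iff₀ hσ0]; linarith
  have hΛ2 : 2 ≤ Λ := by
    have h2 : Real.log 16 ≤ Λ := Real.log_le_log (by norm_num) h16
    have h3 : Real.log 16 = 4 * Real.log 2 := by
      rw [show (16 : ℝ) = 2 ^ 4 by norm_num, Real.log_pow]; norm_num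
    have := Real.log_two_gt_d9
    linarith
  have hσΛ : σ * Λ ^ 2 ≤ 16 := by
    have h2 := Real.log_le_rpow_div (x := 4 / σ) (ε := 1 / 2) (by positivity) (by norm_num)
    rw [← Real.sqrt_eq_rpow] at h2
    have h3 : Λ ^ 2 ≤ (Real.sqrt (4 / σ) / (1 / 2)) ^ 2 := by gcongr
    rw [div_pow, Real.sq_sqrt (by positivity)] at h3
    calc σ * Λ ^ 2 ≤ σ * (4 / σ / (1 / 2) ^ 2) := by gcongr
      _ = 16 := by field_simp; norm_num
  set D := ⌊N / (4 * Λ)⌋₊ with hD
  have hD1 : (D : ℝ) ≤ N / (4 * Λ) := Nat.floor_le (by positivity)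
  have hD2 : N / (4 * Λ) ≤ D + 1 := (Nat.lt_floor_add_one _).le
  obtain ⟨d, hd1, hd2⟩ := exists_d hr D
  set l := ⌈y ^ 21⌉₊ with hl
  have hl1 : y ^ 21 ≤ l := Nat.le_ceil _
  have hy21 : 2 ≤ y ^ 21 := hy2.trans (le_self_pow₀ (by linarith) (by norm_num))
  have hl2 : (l : ℝ) ≤ 2 * y ^ 21 := by
    have := (Nat.ceil_lt_add_one (show 0 ≤ y ^ 21 by positivity)).le
    linarith
  have hrd : ((r * d : ℕ) : ℝ) ≤ (D + 1) ^ 2 := by
    have h2 : (r * d) ^ (r - 1) < ((D + 1) ^ 2) ^ (r - 1) := by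
      refine hd1.trans_le ?_
      rw [← pow_mul]
      exact Nat.pow_le_pow_right (by omega) (by omega)
    exact_mod_cast (lt_of_pow_lt_pow_left₀ _ (Nat.zero_le _) h2).le
  have hD3 : (D : ℝ) + 1 ≤ N / 4 := by
    have : N / (4 * Λ) ≤ N / 8 := by
      apply div_le_div_of_nonneg_left (by linarith) (by norm_num) (by linarith)
    linarith
  have hy3 : N ^ 2 / 4 ≤ y ^ 3 := by
    rw [hyk]
    have h2 := Real.pow_div_factorial_le_exp (x := ((3 : ℕ) : ℝ) * (N / 24)) (by positivity) 4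
    refine le_trans ?_ h2
    have h3 : (((3 : ℕ) : ℝ) * (N / 24)) ^ 4 / (Nat.factorial 4 : ℝ) = N ^ 2 * (N ^ 2 / 98304) := by
      simp only [Nat.factorial]; push_cast; ring
    rw [h3]
    have h4 : 1 / 4 ≤ N ^ 2 / 98304 := by
      rw [le_div_iff₀ (by norm_num)]; nlinarith
    nlinarith [sq_nonneg N]
  have hrd2 : 4 * ((r * d : ℕ) : ℝ) ≤ y ^ 3 := by
    have : ((D : ℝ) + 1) ^ 2 ≤ (N / 4) ^ 2 := by gcongr
    nlinarith
  refine ⟨D, d, l, 1 / y ^ 5, ?_, ?_, ?_, hd1, by positivity, ?_, ?_⟩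
  · exact_mod_cast hy21.trans hl1
  · have h2 : (l : ℝ) ≤ n := by
      rw [← hy24]
      have h3 : 2 ≤ y ^ 3 := hy2.trans (le_self_pow₀ (by linarith) (by norm_num))
      calc (l : ℝ) ≤ 2 * y ^ 21 := hl2
        _ ≤ y ^ 3 * y ^ 21 := by gcongr
        _ = _ := by ring
    exact_mod_cast h2
  · have h2 : 2 * ((r * d : ℕ) : ℝ) * l ≤ n := by
      rw [← hy24]
      calc 2 * ((r * d : ℕ) : ℝ) * l ≤ 2 * ((r * d : ℕ) : ℝ) * (2 * y ^ 21) := by gcongr
        _ = (4 * ((r * d : ℕ) : ℝ)) * y ^ 21 := by ring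
        _ ≤ y ^ 3 * y ^ 21 := by gcongr
        _ = _ := by ring
    exact_mod_cast h2
  · calc (4 / σ) ^ D = Real.exp (D * Λ) := by
          rw [Real.exp_nat_mul, hΛ, Real.exp_log (by positivity)]
      _ ≤ y ^ 6 := by
          rw [hyk]
          apply Real.exp_le_exp.2
          rw [le_div_iff₀ (by positivity)] at hD1
          push_cast
          linarith
      _ = y ^ 21 * (1 / y ^ 5) ^ 3 := by field_simp
      _ ≤ _ := by gcongr
  · have hr' : (2 : ℝ) ≤ r := by exact_mod_cast hr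
    set s : ℝ := (r : ℝ) / ((r : ℝ) - 1) with hs
    have hs0 : 0 ≤ s := div_nonneg (by linarith) (by linarith)
    have hs2 : s ≤ 2 := by rw [hs, div_le_iff₀ (by linarith)]; linarith
    have hN0 : 0 < N := by linarith
    have hNs : 0 < N ^ s := Real.rpow_pos_of_pos hN0 s
    have hNs2 : N ^ s ≤ N ^ 2 := by
      rw [← Real.rpow_two]
      exact Real.rpow_le_rpow_of_exponent_le (by linarith) hs2
    have t1 : ((D : ℝ) + 1) ^ s ≤ r * (d + 1) := by
      have h2 : ((D : ℝ) + 1) ^ r ≤ ((r : ℝ) * (d + 1)) ^ (r - 1) := by exact_mod_cast hd2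
      have h3 := Real.rpow_le_rpow (by positivity) h2
        (show (0 : ℝ) ≤ 1 / ((r : ℝ) - 1) by apply div_nonneg <;> linarith)
      rw [← Real.rpow_natCast, ← Real.rpow_natCast, ← Real.rpow_mul (by positivity),
        ← Real.rpow_mul (by positivity), Nat.cast_sub (by omega), Nat.cast_one,
        mul_one_div_cancel (by linarith), Real.rpow_one, mul_one_div] at h3
      exact h3
    have t2 : N ^ s ≤ 16 * Λ ^ 2 * (r * (d + 1)) := by
      have h2 : N ≤ (4 * Λ) * (D + 1) := by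
        rw [div_le_iff₀ (by positivity)] at hD2; linarith
      calc N ^ s ≤ ((4 * Λ) * (D + 1)) ^ s := Real.rpow_le_rpow hN0.le h2 hs0
        _ = (4 * Λ) ^ s * ((D : ℝ) + 1) ^ s := Real.mul_rpow (by positivity) (by positivity)
        _ ≤ (4 * Λ) ^ (2 : ℝ) * (r * (d + 1)) := by
            gcongr
            linarith
        _ = _ := by rw [Real.rpow_two]; ring
    have t3 : 1 / ((d : ℝ) + 1) * σ ≤ 256 * r / N ^ s := by
      rw [one_div_mul_eq_div, div_le_div_iff₀ (by positivity) hNs]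
      calc σ * N ^ s ≤ σ * (16 * Λ ^ 2 * (r * (d + 1))) := by gcongr
        _ = 16 * (σ * Λ ^ 2) * (r * (d + 1)) := by ring
        _ ≤ 16 * 16 * (r * (d + 1)) := by gcongr
        _ = _ := by ring
    have t4 : 4 * n * (1 / y ^ 5) / l * σ ≤ 288 / N ^ s := by
      have h2 : N ^ 2 / 288 ≤ y ^ 2 := by
        rw [hyk]
        have h3 := Real.pow_div_factorial_le_exp (x := ((2 : ℕ) : ℝ) * (N / 24)) (by positivity) 2
        refine le_trans (le_of_eq ?_) h3
        simp only [Nat.factorial]; push_cast; ring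
      calc 4 * n * (1 / y ^ 5) / l * σ ≤ 4 * n * (1 / y ^ 5) / y ^ 21 * (1 / 4) := by gcongr
        _ = 1 / y ^ 2 := by rw [← hy24]; field_simp
        _ ≤ 288 / N ^ s := by
            rw [div_le_div_iff₀ (by positivity) hNs]
            linarith
    rw [add_mul]
    refine (add_le_add t3 t4).trans ?_
    rw [← add_div]
    gcongr
    linarith

theorem main (h0 : 0 < p) (h1 : p < 1) (f : (ι → Bool) → ℝ) (hf : ∀ x, f x = 0 ∨ f x = 1)
    (V : ι → Finset (Fin n)) (hV : Function.Injective V) (hcard : ∀ e, (V e).card = r)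
    (hr : 2 ≤ r) (hn : 2 ≤ n)
    (hsym : ∀ σ : Equiv.Perm (Fin n), ∃ π : Equiv.Perm ι,
      (∀ e, V (π e) = (V e).map σ.toEmbedding) ∧ ∀ x, f (x ∘ π) = f x) :
    Ex p f * (1 - Ex p f) ≤
      2 ^ 16 * r / Real.log n ^ ((r : ℝ) / ((r : ℝ) - 1)) * infl p f := by
  have hI := infl_nonneg h0.le h1.le f
  have hσ0 : 0 < p * (1 - p) := mul_pos h0 (by linarith)
  have hσ : p * (1 - p) ≤ 1 / 4 := by nlinarith [sq_nonneg (p - 1 / 2)]
  by_cases hN : 724 ≤ Real.log n
  · obtain ⟨D, d, l, K, hl, hln, hdl, hdD, hK, hKl, hfin⟩ := params hr n hN _ hσ0 hσ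
    have := star h0 h1 f hf V hV hcard hr hsym D d l hl hln hdl hdD K hK (by
      rw [← pow_mul, mul_comm D 2, pow_mul, div_pow, sd_sq h0 h1]
      norm_num at hKl ⊢
      exact hKl)
    rw [Jf_eq h0 h1, ← mul_assoc] at this
    exact this.trans (mul_le_mul_of_nonneg_right hfin hI)
  · refine (poincare h0 h1 f hf).trans ?_
    rw [Jf_eq h0 h1]
    refine mul_le_mul_of_nonneg_right (hσ.trans ?_) hI
    have hr' : (2 : ℝ) ≤ r := by exact_mod_cast hr
    set s : ℝ := (r : ℝ) / ((r : ℝ) - 1) with hs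
    have hs0 : 0 ≤ s := div_nonneg (by linarith) (by linarith)
    have hs2 : s ≤ 2 := by rw [hs, div_le_iff₀ (by linarith)]; linarith
    have hN0 : 0 < Real.log n := Real.log_pos (by exact_mod_cast hn)
    have h2 : Real.log n ^ s ≤ 724 ^ 2 := by
      calc Real.log n ^ s ≤ 724 ^ s := Real.rpow_le_rpow hN0.le (not_le.1 hN).le hs0
        _ ≤ 724 ^ (2 : ℝ) := Real.rpow_le_rpow_of_exponent_le (by norm_num) hs2
        _ = _ := Real.rpow_two _
    rw [le_div_iff₀ (Real.rpow_pos_of_pos hN0 s)]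
    nlinarith

/-- Russo's formula -/
lemma russo (f : (ι → Bool) → ℝ) (t : ℝ) (h0 : 0 < t) (h1 : t < 1) :
    HasDerivAt (fun t => Ex t f)
      (∑ e, Ex t (fun x => f (Function.update x e true) - f (Function.update x e false))) t := by
  have hw : ∀ x : ι → Bool, HasDerivAt (fun t => w t x)
      (∑ e, w t x * (if x e then 1 / t else -(1 / (1 - t)))) t := by
    intro x
    have h := HasDerivAt.fun_finsetProd (u := univ) (f := fun i t => wb t (x i))
      (f' := fun i => if x i then 1 else -1) (x := t) (fun i _ => by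
        unfold wb
        split_ifs
        · exact hasDerivAt_id t
        · simpa using (hasDerivAt_id t).const_sub 1)
    refine HasDerivAt.congr_deriv h ?_
    refine sum_congr rfl fun e _ => ?_
    symm
    rw [w, ← mul_prod_erase _ _ (mem_univ e), smul_eq_mul]
    have : 1 - t ≠ 0 := by linarith
    unfold wb
    split_ifs <;> field_simp
  have h := HasDerivAt.fun_sum (u := univ) (fun x _ => (hw x).mul_const (f x))
  refine HasDerivAt.congr_deriv h ?_
  symm
  simp only [sum_mul]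
  rw [sum_comm]
  refine sum_congr rfl fun e _ => ?_
  have h2 := Ex_split (p := t) e (fun x => (if x e then 1 / t else -(1 / (1 - t))) * f x)
  simp only [Function.update_self, if_true, Bool.false_eq_true, if_false] at h2
  have : 1 - t ≠ 0 := by linarith
  calc _ = Ex t (fun x => (if x e then 1 / t else -(1 / (1 - t))) * f x) := by
        rw [h2]
        congr 1
        funext x
        field_simp
        ring
    _ = _ := sum_congr rfl fun x _ => by ring

lemma continuous_Ex (f : (ι → Bool) → ℝ) : Continuous fun t => Ex t f := by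
  unfold Ex w
  refine continuous_finsetSum _ fun x _ => Continuous.mul ?_ continuous_const
  refine continuous_finsetProd _ fun i _ => ?_
  unfold wb
  split_ifs <;> fun_prop

theorem sharp (μ I : ℝ → ℝ) (κ : ℝ) (hκ : 0 < κ) (hc : Continuous μ)
    (hd : ∀ t, 0 < t → t < 1 → HasDerivAt μ (I t) t) (hI : ∀ t, 0 < t → t < 1 → 0 ≤ I t)
    (hvar : ∀ t, 0 < t → t < 1 → κ * (μ t * (1 - μ t)) ≤ I t)
    (ε : ℝ) (hε0 : 0 < ε) (hε : ε < 1 / 2) (a b : ℝ) (ha : 0 ≤ a) (hb : b ≤ 1)
    (hμa : ε ≤ μ a) (hab : a + 4 / κ * Real.log (1 / (2 * ε)) ≤ b) : 1 - ε ≤ μ b := by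
  by_contra hcon
  push Not at hcon
  have hlog : 0 ≤ Real.log (1 / (2 * ε)) :=
    Real.log_nonneg (by rw [le_div_iff₀ (by positivity)]; linarith)
  have hab' : a ≤ b := by
    have : 0 ≤ 4 / κ * Real.log (1 / (2 * ε)) := by positivity
    linarith
  have hint : ∀ t ∈ interior (Set.Icc a b), 0 < t ∧ t < 1 := by
    intro t ht
    rw [interior_Icc] at ht
    exact ⟨by linarith [ht.1], by linarith [ht.2]⟩
  have hmono : MonotoneOn μ (Set.Icc a b) := by
    refine monotoneOn_of_deriv_nonneg (convex_Icc a b) hc.continuousOn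
      (fun t ht => (hd t (hint t ht).1 (hint t ht).2).differentiableAt.differentiableWithinAt)
      fun t ht => ?_
    rw [(hd t (hint t ht).1 (hint t ht).2).deriv]
    exact hI t (hint t ht).1 (hint t ht).2
  have hrange : ∀ t ∈ Set.Icc a b, 0 < μ t ∧ 0 < 1 - μ t := by
    intro t ht
    have h2 := hmono (Set.left_mem_Icc.2 hab') ht ht.1
    have h3 := hmono ht (Set.right_mem_Icc.2 hab') ht.2
    constructor <;> linarith
  let ψ : ℝ → ℝ := fun t => Real.log (μ t) - Real.log (1 - μ t)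
  have hψd : ∀ t ∈ interior (Set.Icc a b),
      HasDerivAt ψ (I t / μ t - (-I t) / (1 - μ t)) t := by
    intro t ht
    have h2 := hd t (hint t ht).1 (hint t ht).2
    have h3 := hrange t (interior_subset ht)
    exact (h2.log h3.1.ne').sub ((h2.const_sub 1).log h3.2.ne')
  have hψc : ContinuousOn ψ (Set.Icc a b) :=
    (hc.continuousOn.log fun t ht => (hrange t ht).1.ne').sub
      ((continuous_const.sub hc).continuousOn.log fun t ht => (hrange t ht).2.ne')
  have key := (convex_Icc a b).mul_sub_le_image_sub_of_le_deriv hψc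
    (fun t ht => (hψd t ht).differentiableAt.differentiableWithinAt) (C := κ)
    (fun t ht => by
      rw [(hψd t ht).deriv]
      have h3 := hrange t (interior_subset ht)
      have h4 := hvar t (hint t ht).1 (hint t ht).2
      have e : I t / μ t - (-I t) / (1 - μ t) = I t / (μ t * (1 - μ t)) := by
        have := h3.1.ne'
        have := h3.2.ne'
        field_simp; ring
      rw [e, le_div_iff₀ (mul_pos h3.1 h3.2)]
      exact h4) a (Set.left_mem_Icc.2 hab') b (Set.right_mem_Icc.2 hab') hab'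
  have h5 : 4 * Real.log (1 / (2 * ε)) ≤ κ * (b - a) := by
    have : κ * (4 / κ * Real.log (1 / (2 * ε))) = 4 * Real.log (1 / (2 * ε)) := by field_simp
    rw [← this]
    exact mul_le_mul_of_nonneg_left (by linarith) hκ.le
  have ra := hrange a (Set.left_mem_Icc.2 hab')
  have rb := hrange b (Set.right_mem_Icc.2 hab')
  have l1 : Real.log (μ b) < Real.log (1 - ε) := Real.log_lt_log rb.1 hcon
  have l2 : Real.log ε ≤ Real.log (1 - μ b) := Real.log_le_log hε0 (by linarith)
  have l3 : Real.log ε ≤ Real.log (μ a) := Real.log_le_log hε0 hμa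
  have l4 : Real.log (1 - μ a) ≤ Real.log (1 - ε) := Real.log_le_log ra.2 (by linarith)
  have l5 : Real.log (1 - ε) - Real.log ε ≤ 2 * Real.log (1 / (2 * ε)) := by
    rw [← Real.log_div (by linarith) hε0.ne', show 2 * Real.log (1 / (2 * ε)) =
      Real.log ((1 / (2 * ε)) ^ 2) by rw [Real.log_pow]; norm_num]
    apply Real.log_le_log (div_pos (by linarith) hε0)
    rw [div_pow, div_le_div_iff₀ hε0 (by positivity)]
    nlinarith [mul_nonneg hε0.le (sq_nonneg (2 * ε - 1))]
  simp only [ψ] at key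
  linarith

end Crest.Agent.R56
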