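import Mathlib
import Crest.Prelude.Def_FinProb
import Crest.Agent.R56.Main

set_option autoImplicit false
open Finset

namespace Crest.Agent.R56

variable {ι : Type*} [Fintype ι] [DecidableEq ι]

open Classical in
noncomputable def ind (E : Set (ι → Bool)) (x : ι → Bool) : ℝ := if x ∈ E then 1 else 0

omit [Fintype ι] [DecidableEq ι] in
lemma ind_01 (E : Set (ι → Bool)) (x : ι → Bool) : ind E x = 0 ∨ ind E x = 1 := by
  unfold ind; split_ifs <;> simp

omit [Fintype ι] [DecidableEq ι] in
lemma ind_congr (E : Set (ι → Bool)) {x y : ι → Bool} (h : x ∈ E ↔ y ∈ E) : ind E x = ind E y := by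
  unfold ind
  by_cases hx : x ∈ E
  · rw [if_pos hx, if_pos (h.1 hx)]
  · rw [if_neg hx, if_neg (fun hy => hx (h.2 hy))]

lemma prob_eq (p : ℝ) (E : Set (ι → Bool)) : Crest.FinProb.bernoulliProb p E = Ex p (ind E) := by
  unfold Crest.FinProb.bernoulliProb Ex ind
  rw [sum_filter]
  refine sum_congr rfl fun x _ => ?_
  split_ifs
  · rw [mul_one]; rfl
  · rw [mul_zero]

end Crest.Agent.R56
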